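/-
Row 211 / S0326 (helper10): shared definitions for the sheared-square covering lemma.
-/
import Mathlib

set_option autoImplicit false

namespace Crest.Agent.Helper10

/-- The Euclidean plane. -/
abbrev E2 : Type := EuclideanSpace ℝ (Fin 2)

/-- Half-open axis-parallel grid cell of side `r` with integer index `m`. -/
def cell (r : ℝ) (m : Fin 2 → ℤ) : Set E2 :=
  {x | ∀ k, r * (m k : ℝ) ≤ x k ∧ x k < r * ((m k : ℝ) + 1)}

/-- The closed cell enlarged by `ρ` in every coordinate direction. -/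
def boxPlus (r ρ : ℝ) (m : Fin 2 → ℤ) : Set E2 :=
  {x | ∀ k, r * (m k : ℝ) - ρ ≤ x k ∧ x k ≤ r * ((m k : ℝ) + 1) + ρ}

/-- The weight `J_h(g) = (1 + g₀² + h² g₁²)^(-1/2)`. -/
noncomputable def Jh (h : ℝ) (g : E2) : ℝ :=
  1 / Real.sqrt (1 + (g 0) ^ 2 + h ^ 2 * (g 1) ^ 2)

end Crest.Agent.Helper10
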