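/-
Row 211 / S0326 (helper10).  The lattice covering lemma: unit squares centred at the points of the
sheared lattice `(i + α j, j + β i)` cover the plane when `α, β` have the same sign and `α β < 1`.
-/
import Mathlib

set_option autoImplicit false

namespace Crest.Agent.Helper10

/-- Core case `0 ≤ α`, `0 ≤ β`. -/
theorem lattice_cover_nonneg (α β : ℝ) (hα : 0 ≤ α) (hβ : 0 ≤ β) (hαβ : α * β < 1) (x₁ x₂ : ℝ) :
    ∃ i j : ℤ, |x₁ - i - α * j| ≤ 1 / 2 ∧ |x₂ - j - β * i| ≤ 1 / 2 := by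
  set I : ℤ → ℤ := fun j => ⌊x₁ - α * j + 1 / 2⌋ with hI
  have hI1 : ∀ j : ℤ, (I j : ℝ) ≤ x₁ - α * j + 1 / 2 := fun j => Int.floor_le _
  have hI2 : ∀ j : ℤ, x₁ - α * j + 1 / 2 < (I j : ℝ) + 1 := fun j => Int.lt_floor_add_one _
  set φ : ℤ → ℝ := fun j => x₂ - j - β * (I j) with hφ
  have hd : 0 < 1 - α * β := by linarith
  -- upper and lower estimates of φ
  have hφup : ∀ j : ℤ, φ j ≤ x₂ - β * x₁ + β / 2 - j * (1 - α * β) := by
    intro j
    have h := hI2 j
    have : β * (x₁ - α * j - 1 / 2) ≤ β * (I j : ℝ) := by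
      apply mul_le_mul_of_nonneg_left _ hβ
      linarith
    simp only [hφ]
    nlinarith
  have hφlo : ∀ j : ℤ, x₂ - β * x₁ - β / 2 - j * (1 - α * β) ≤ φ j := by
    intro j
    have h := hI1 j
    have : β * (I j : ℝ) ≤ β * (x₁ - α * j + 1 / 2) := mul_le_mul_of_nonneg_left h hβ
    simp only [hφ]
    nlinarith
  -- the set of j with φ j ≤ 1/2 is nonempty and bounded below
  have hne : ∃ j : ℤ, φ j ≤ 1 / 2 := by
    refine ⟨⌈(x₂ - β * x₁ + β / 2 - 1 / 2) / (1 - α * β)⌉, ?_⟩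
    have h1 := hφup ⌈(x₂ - β * x₁ + β / 2 - 1 / 2) / (1 - α * β)⌉
    have h2 : (x₂ - β * x₁ + β / 2 - 1 / 2) / (1 - α * β) ≤
        (⌈(x₂ - β * x₁ + β / 2 - 1 / 2) / (1 - α * β)⌉ : ℝ) := Int.le_ceil _
    rw [div_le_iff₀ hd] at h2
    linarith
  have hbdd : ∃ b : ℤ, ∀ j : ℤ, φ j ≤ 1 / 2 → b ≤ j := by
    refine ⟨⌊(x₂ - β * x₁ - β / 2 - 1 / 2) / (1 - α * β)⌋, ?_⟩
    intro j hj
    have h1 := hφlo j
    have h2 : (x₂ - β * x₁ - β / 2 - 1 / 2) / (1 - α * β) ≤ (j : ℝ) := by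
      rw [div_le_iff₀ hd]
      linarith
    have h3 := Int.floor_le ((x₂ - β * x₁ - β / 2 - 1 / 2) / (1 - α * β))
    have h4 : ((⌊(x₂ - β * x₁ - β / 2 - 1 / 2) / (1 - α * β)⌋ : ℤ) : ℝ) ≤ (j : ℝ) :=
      le_trans h3 h2
    exact_mod_cast h4
  obtain ⟨j₀, hj₀, hmin⟩ := Int.exists_least_of_bdd hbdd hne
  refine ⟨I j₀, j₀, ?_, ?_⟩
  · rw [abs_le]
    have h1 := hI1 j₀
    have h2 := hI2 j₀
    constructor <;> linarith
  · rw [abs_le]
    refine ⟨?_, hj₀⟩
    -- φ (j₀ - 1) > 1/2 by minimality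
    have hprev : 1 / 2 < φ (j₀ - 1) := by
      by_contra hcon
      have := hmin (j₀ - 1) (not_lt.mp hcon)
      omega
    -- monotonicity of I
    have hImono : I j₀ ≤ I (j₀ - 1) := by
      simp only [hI]
      apply Int.floor_le_floor
      have : α * ((j₀ - 1 : ℤ) : ℝ) ≤ α * (j₀ : ℝ) := by
        apply mul_le_mul_of_nonneg_left _ hα
        push_cast
        linarith
      linarith
    have hImono' : (I j₀ : ℝ) ≤ (I (j₀ - 1) : ℝ) := by exact_mod_cast hImono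
    have hstep : φ (j₀ - 1) - 1 ≤ φ j₀ := by
      simp only [hφ]
      push_cast
      nlinarith
    linarith

/-- The lattice covering lemma: for `α β ≥ 0` (same signs) and `α β < 1`. -/
theorem lattice_cover (α β : ℝ) (h0 : 0 ≤ α * β) (h1 : α * β < 1) (x₁ x₂ : ℝ) :
    ∃ i j : ℤ, |x₁ - i - α * j| ≤ 1 / 2 ∧ |x₂ - j - β * i| ≤ 1 / 2 := by
  by_cases hα : 0 ≤ α
  · by_cases hβ : 0 ≤ β
    · exact lattice_cover_nonneg α β hα hβ h1 x₁ x₂
    · have hβ := not_le.mp hβ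
      -- then α = 0
      have hα0 : α = 0 := by
        by_contra hne
        have hpos : 0 < α := lt_of_le_of_ne hα (Ne.symm hne)
        nlinarith
      subst hα0
      refine ⟨round x₁, round (x₂ - β * round x₁), ?_, ?_⟩
      · simpa using abs_sub_round x₁
      · have := abs_sub_round (x₂ - β * round x₁)
        have e : x₂ - (round (x₂ - β * round x₁) : ℝ) - β * (round x₁ : ℝ) =
            x₂ - β * round x₁ - round (x₂ - β * round x₁) := by ring
        rw [e]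
        exact this
  · have hα := not_le.mp hα
    have hβ : β ≤ 0 := by
      by_contra hcon
      have hcon := not_le.mp hcon
      nlinarith
    obtain ⟨i, j, hi, hj⟩ := lattice_cover_nonneg (-α) (-β) (by linarith) (by linarith)
      (by nlinarith) (-x₁) x₂
    refine ⟨-i, j, ?_, ?_⟩
    · have e : x₁ - ((-i : ℤ) : ℝ) - α * j = -(-x₁ - i - -α * j) := by push_cast; ring
      rw [e, abs_neg]
      exact hi
    · have e : x₂ - (j : ℝ) - β * ((-i : ℤ) : ℝ) = x₂ - j - -β * i := by push_cast; ring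
      rw [e]
      exact hj

end Crest.Agent.Helper10
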