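/-
Row 211 / S0326 (helper10).  Linear algebra in a frame in which a trace-free operator has zero
diagonal: exact covering by the sheared square lattice, the inverse bound for `I + sA`, and the two
pointwise covering lemmas (velocities `V(centre)` resp. linearised velocities).
-/
import Crest.Agent.Helper10.Cover.Lattice
import Crest.Agent.Helper10.Cover.Defs

set_option autoImplicit false

namespace Crest.Agent.Helper10

section frame

variable (A : E2 →L[ℝ] E2) (f₁ f₂ : E2) (α β : ℝ)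

/-- Exact covering of the plane by the squares of side `η` (in the frame `f₁, f₂`) centred at the
points `(I + sA) z`, `z` in the lattice `η ℤ f₁ + η ℤ f₂`. -/
theorem linear_cover (_h1 : ‖f₁‖ = 1) (_h2 : ‖f₂‖ = 1) (_h12 : inner ℝ f₁ f₂ = 0)
    (hdec : ∀ x : E2, x = inner ℝ x f₁ • f₁ + inner ℝ x f₂ • f₂)
    (hA1 : A f₁ = β • f₂) (hA2 : A f₂ = α • f₁)
    (s : ℝ) (h0 : 0 ≤ α * β) (hs : s ^ 2 * (α * β) < 1) (η : ℝ) (hη : 0 < η) (v : E2) :
    ∃ (i j : ℤ) (x₁ x₂ : ℝ), |x₁| ≤ η / 2 ∧ |x₂| ≤ η / 2 ∧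
      v = ((η * (i : ℝ)) • f₁ + (η * (j : ℝ)) • f₂)
          + s • A ((η * (i : ℝ)) • f₁ + (η * (j : ℝ)) • f₂) + x₁ • f₁ + x₂ • f₂ := by
  obtain ⟨i, j, hi, hj⟩ := lattice_cover (s * α) (s * β) (by nlinarith [sq_nonneg s])
    (by nlinarith) (inner ℝ v f₁ / η) (inner ℝ v f₂ / η)
  refine ⟨i, j, η * (inner ℝ v f₁ / η - i - s * α * j), η * (inner ℝ v f₂ / η - j - s * β * i),
    ?_, ?_, ?_⟩
  · rw [abs_mul, abs_of_pos hη]
    nlinarith
  · rw [abs_mul, abs_of_pos hη]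
    nlinarith
  · rw [map_add, map_smul, map_smul, hA1, hA2]
    have e1 : η * (inner ℝ v f₁ / η) = inner ℝ v f₁ := by field_simp
    have e2 : η * (inner ℝ v f₂ / η) = inner ℝ v f₂ := by field_simp
    have key : ((η * (i : ℝ)) • f₁ + (η * (j : ℝ)) • f₂)
          + s • ((η * (i : ℝ)) • β • f₂ + (η * (j : ℝ)) • α • f₁)
          + (η * (inner ℝ v f₁ / η - i - s * α * j)) • f₁
          + (η * (inner ℝ v f₂ / η - j - s * β * i)) • f₂
        = (η * (inner ℝ v f₁ / η)) • f₁ + (η * (inner ℝ v f₂ / η)) • f₂ := by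
      module
    rw [key, e1, e2]
    exact hdec v

include f₁ f₂ α β in
/-- `A ∘ A = αβ • id` in such a frame. -/
theorem frame_sq (hdec : ∀ x : E2, x = inner ℝ x f₁ • f₁ + inner ℝ x f₂ • f₂)
    (hA1 : A f₁ = β • f₂) (hA2 : A f₂ = α • f₁) (z : E2) : A (A z) = (α * β) • z := by
  have hz := hdec z
  have h1 : A z = inner ℝ z f₁ • β • f₂ + inner ℝ z f₂ • α • f₁ := by
    conv_lhs => rw [hz]
    rw [map_add, map_smul, map_smul, hA1, hA2]
  rw [h1, map_add, map_smul, map_smul, map_smul, map_smul, hA1, hA2]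
  conv_rhs => rw [hz]
  module

include f₁ f₂ in
/-- The inverse bound for `I + sA`. -/
theorem inv_bound (hdec : ∀ x : E2, x = inner ℝ x f₁ • f₁ + inner ℝ x f₂ • f₂)
    (hA1 : A f₁ = β • f₂) (hA2 : A f₂ = α • f₁) (s : ℝ) (z : E2) :
    (1 - s ^ 2 * (α * β)) * ‖z‖ ≤ (1 + |s| * ‖A‖) * ‖z + s • A z‖ := by
  have hsq := frame_sq A f₁ f₂ α β hdec hA1 hA2 z
  have hid : (z + s • A z) - s • A (z + s • A z) = (1 - s ^ 2 * (α * β)) • z := by
    rw [map_add, map_smul, hsq]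
    module
  have h1 : ‖(1 - s ^ 2 * (α * β)) • z‖ ≤ ‖z + s • A z‖ + |s| * (‖A‖ * ‖z + s • A z‖) := by
    rw [← hid]
    refine (norm_sub_le _ _).trans ?_
    gcongr
    rw [norm_smul, Real.norm_eq_abs]
    gcongr
    exact A.le_opNorm _
  rw [norm_smul, Real.norm_eq_abs] at h1
  have h2 : (1 - s ^ 2 * (α * β)) * ‖z‖ ≤ |1 - s ^ 2 * (α * β)| * ‖z‖ :=
    mul_le_mul_of_nonneg_right (le_abs_self _) (norm_nonneg _)
  nlinarith

include f₁ f₂ in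
/-- Norm of a vector with small frame coordinates. -/
theorem norm_frame_le (h1 : ‖f₁‖ = 1) (h2 : ‖f₂‖ = 1) (x₁ x₂ : ℝ) :
    ‖x₁ • f₁ + x₂ • f₂‖ ≤ |x₁| + |x₂| := by
  refine (norm_add_le _ _).trans ?_
  rw [norm_smul, norm_smul, h1, h2, Real.norm_eq_abs, Real.norm_eq_abs]
  linarith

/-- Pointwise covering with velocities `V(centre)` (Track 1): the point `p + s V p` lies in the
slightly enlarged square centred at a lattice point `c` near `p`, moved with velocity `V c`. -/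
theorem point_cover_V (V : E2 → E2) (h1 : ‖f₁‖ = 1) (h2 : ‖f₂‖ = 1) (h12 : inner ℝ f₁ f₂ = 0)
    (hdec : ∀ x : E2, x = inner ℝ x f₁ • f₁ + inner ℝ x f₂ • f₂)
    (hA1 : A f₁ = β • f₂) (hA2 : A f₂ = α • f₁)
    (L κ M : ℝ) (hL : 0 < L) (hκ : 0 < κ) (hM : 0 ≤ M) (h0 : 0 ≤ α * β)
    (hκA : ∀ s : ℝ, |s| ≤ L → κ ≤ 1 - s ^ 2 * (α * β)) (hMA : ‖A‖ ≤ M)
    (p₀ p : E2) (η' ℓ : ℝ) (hη' : 0 ≤ η') (hℓ : 0 < ℓ)
    (hlin : ∀ q : E2, dist q p ≤ (1 + L * M) / κ * ℓ → ‖V p - V q - A (p - q)‖ ≤ η' * ‖p - q‖)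
    (s : ℝ) (hs : |s| ≤ L) :
    ∃ (i j : ℤ) (y₁ y₂ : ℝ),
      dist (p₀ + (ℓ * (i : ℝ)) • f₁ + (ℓ * (j : ℝ)) • f₂) p ≤ (1 + L * M) / κ * ℓ ∧
      |y₁| ≤ ℓ / 2 + L * η' * ((1 + L * M) / κ * ℓ) ∧
      |y₂| ≤ ℓ / 2 + L * η' * ((1 + L * M) / κ * ℓ) ∧
      p + s • V p = (p₀ + (ℓ * (i : ℝ)) • f₁ + (ℓ * (j : ℝ)) • f₂)
        + s • V (p₀ + (ℓ * (i : ℝ)) • f₁ + (ℓ * (j : ℝ)) • f₂) + y₁ • f₁ + y₂ • f₂ := by
  have hκs := hκA s hs
  obtain ⟨i, j, x₁, x₂, hx₁, hx₂, hv⟩ := linear_cover A f₁ f₂ α β h1 h2 h12 hdec hA1 hA2 s h0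
    (by linarith) ℓ hℓ ((p - p₀) + s • A (p - p₀))
  set z : E2 := (ℓ * (i : ℝ)) • f₁ + (ℓ * (j : ℝ)) • f₂ with hz
  set c : E2 := p₀ + (ℓ * (i : ℝ)) • f₁ + (ℓ * (j : ℝ)) • f₂ with hc
  have hcz : c = p₀ + z := by rw [hc, hz, add_assoc]
  set d : E2 := p - c with hd
  -- the key linear identity
  have hdx : d + s • A d = x₁ • f₁ + x₂ • f₂ := by
    have : d = (p - p₀) - z := by rw [hd, hcz]; abel
    rw [this, map_sub, smul_sub]
    have hv' : (p - p₀) + s • A (p - p₀) - (z + s • A z) = x₁ • f₁ + x₂ • f₂ := by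
      rw [hv]; abel
    rw [← hv']; abel
  have hxn : ‖x₁ • f₁ + x₂ • f₂‖ ≤ ℓ := by
    have := norm_frame_le f₁ f₂ h1 h2 x₁ x₂
    linarith
  have hK : 0 ≤ (1 + L * M) / κ := by positivity
  -- distance bound
  have hdn : ‖d‖ ≤ (1 + L * M) / κ * ℓ := by
    have hib := inv_bound A f₁ f₂ α β hdec hA1 hA2 s d
    rw [hdx] at hib
    have h3 : (1 + |s| * ‖A‖) * ‖x₁ • f₁ + x₂ • f₂‖ ≤ (1 + L * M) * ℓ := by
      have : |s| * ‖A‖ ≤ L * M := mul_le_mul hs hMA (norm_nonneg _) hL.le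
      have h4 : 0 ≤ 1 + |s| * ‖A‖ := by positivity
      calc (1 + |s| * ‖A‖) * ‖x₁ • f₁ + x₂ • f₂‖ ≤ (1 + |s| * ‖A‖) * ℓ :=
            mul_le_mul_of_nonneg_left hxn h4
        _ ≤ (1 + L * M) * ℓ := by
            apply mul_le_mul_of_nonneg_right _ hℓ.le
            linarith
    have h5 : κ * ‖d‖ ≤ (1 + L * M) * ℓ := by
      have : κ * ‖d‖ ≤ (1 - s ^ 2 * (α * β)) * ‖d‖ :=
        mul_le_mul_of_nonneg_right hκs (norm_nonneg _)
      linarith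
    rw [div_mul_eq_mul_div, le_div_iff₀ hκ]
    linarith
  have hdist : dist c p ≤ (1 + L * M) / κ * ℓ := by
    rw [dist_comm, dist_eq_norm]
    exact hdn
  -- the nonlinear error
  set err : E2 := V p - V c - A (p - c) with herr
  have herrn : ‖err‖ ≤ η' * ((1 + L * M) / κ * ℓ) := by
    refine (hlin c hdist).trans ?_
    exact mul_le_mul_of_nonneg_left hdn hη'
  have hserr : ‖s • err‖ ≤ L * η' * ((1 + L * M) / κ * ℓ) := by
    rw [norm_smul, Real.norm_eq_abs]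
    have : |s| * ‖err‖ ≤ L * (η' * ((1 + L * M) / κ * ℓ)) :=
      mul_le_mul hs herrn (norm_nonneg _) hL.le
    linarith
  have hc1 : |inner ℝ (s • err) f₁| ≤ L * η' * ((1 + L * M) / κ * ℓ) := by
    have := abs_real_inner_le_norm (s • err) f₁
    rw [h1, mul_one] at this
    linarith
  have hc2 : |inner ℝ (s • err) f₂| ≤ L * η' * ((1 + L * M) / κ * ℓ) := by
    have := abs_real_inner_le_norm (s • err) f₂
    rw [h2, mul_one] at this
    linarith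
  refine ⟨i, j, x₁ + inner ℝ (s • err) f₁, x₂ + inner ℝ (s • err) f₂, hdist, ?_, ?_, ?_⟩
  · have := abs_add_le x₁ (inner ℝ (s • err) f₁)
    linarith
  · have := abs_add_le x₂ (inner ℝ (s • err) f₂)
    linarith
  · have hdecerr := hdec (s • err)
    have e1 : p + s • V p = c + s • V c + (d + s • A d) + s • err := by
      rw [herr, hd]
      module
    rw [e1, hdx]
    have e2 : c + s • V c + (x₁ + inner ℝ (s • err) f₁) • f₁ + (x₂ + inner ℝ (s • err) f₂) • f₂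
        = c + s • V c + (x₁ • f₁ + x₂ • f₂)
          + (inner ℝ (s • err) f₁ • f₁ + inner ℝ (s • err) f₂ • f₂) := by
      module
    rw [e2, ← hdecerr]

/-- Pointwise covering with linearised velocities (Track 2): no enlargement of the square. -/
theorem point_cover_lin (V : E2 → E2) (h1 : ‖f₁‖ = 1) (h2 : ‖f₂‖ = 1) (h12 : inner ℝ f₁ f₂ = 0)
    (hdec : ∀ x : E2, x = inner ℝ x f₁ • f₁ + inner ℝ x f₂ • f₂)
    (hA1 : A f₁ = β • f₂) (hA2 : A f₂ = α • f₁)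
    (L κ M : ℝ) (hL : 0 < L) (hκ : 0 < κ) (_hM : 0 ≤ M) (h0 : 0 ≤ α * β)
    (hκA : ∀ s : ℝ, |s| ≤ L → κ ≤ 1 - s ^ 2 * (α * β)) (hMA : ‖A‖ ≤ M)
    (p₀ p : E2) (e η : ℝ) (hη : 0 < η)
    (hlin : ‖V p - V p₀ - A (p - p₀)‖ ≤ e)
    (s : ℝ) (hs : |s| ≤ L) :
    ∃ (i j : ℤ) (x₁ x₂ : ℝ),
      dist (p₀ + (η * (i : ℝ)) • f₁ + (η * (j : ℝ)) • f₂) p ≤ (1 + L * M) / κ * (L * e + η) ∧
      |x₁| ≤ η / 2 ∧ |x₂| ≤ η / 2 ∧
      p + s • V p = (p₀ + (η * (i : ℝ)) • f₁ + (η * (j : ℝ)) • f₂)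
        + s • (V p₀ + A ((η * (i : ℝ)) • f₁ + (η * (j : ℝ)) • f₂)) + x₁ • f₁ + x₂ • f₂ := by
  have hκs := hκA s hs
  set rem : E2 := V p - V p₀ - A (p - p₀) with hrem
  obtain ⟨i, j, x₁, x₂, hx₁, hx₂, hv⟩ := linear_cover A f₁ f₂ α β h1 h2 h12 hdec hA1 hA2 s h0
    (by linarith) η hη ((p - p₀) + s • A (p - p₀) + s • rem)
  set z : E2 := (η * (i : ℝ)) • f₁ + (η * (j : ℝ)) • f₂ with hz
  set c : E2 := p₀ + (η * (i : ℝ)) • f₁ + (η * (j : ℝ)) • f₂ with hc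
  have hcz : c = p₀ + z := by rw [hc, hz, add_assoc]
  set d : E2 := p - c with hd
  have hdx : d + s • A d = x₁ • f₁ + x₂ • f₂ - s • rem := by
    have : d = (p - p₀) - z := by rw [hd, hcz]; abel
    rw [this, map_sub, smul_sub]
    have hv' : (p - p₀) + s • A (p - p₀) - (z + s • A z) = x₁ • f₁ + x₂ • f₂ - s • rem := by
      have : (p - p₀) + s • A (p - p₀) = ((p - p₀) + s • A (p - p₀) + s • rem) - s • rem := by
        abel
      rw [this, hv]; abel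
    rw [← hv']; abel
  have hxn : ‖x₁ • f₁ + x₂ • f₂‖ ≤ η := by
    have := norm_frame_le f₁ f₂ h1 h2 x₁ x₂
    linarith
  have hsrem : ‖s • rem‖ ≤ L * e := by
    rw [norm_smul, Real.norm_eq_abs]
    exact mul_le_mul hs hlin (norm_nonneg _) hL.le
  have hrhs : ‖x₁ • f₁ + x₂ • f₂ - s • rem‖ ≤ L * e + η := by
    refine (norm_sub_le _ _).trans ?_
    linarith
  have hdn : ‖d‖ ≤ (1 + L * M) / κ * (L * e + η) := by
    have hib := inv_bound A f₁ f₂ α β hdec hA1 hA2 s d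
    rw [hdx] at hib
    have h3 : (1 + |s| * ‖A‖) * ‖x₁ • f₁ + x₂ • f₂ - s • rem‖ ≤ (1 + L * M) * (L * e + η) := by
      have : |s| * ‖A‖ ≤ L * M := mul_le_mul hs hMA (norm_nonneg _) hL.le
      have h4 : 0 ≤ 1 + |s| * ‖A‖ := by positivity
      have h6 : 0 ≤ L * e + η := le_trans (norm_nonneg _) hrhs
      calc (1 + |s| * ‖A‖) * ‖x₁ • f₁ + x₂ • f₂ - s • rem‖ ≤ (1 + |s| * ‖A‖) * (L * e + η) :=
            mul_le_mul_of_nonneg_left hrhs h4
        _ ≤ (1 + L * M) * (L * e + η) := by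
            apply mul_le_mul_of_nonneg_right _ h6
            linarith
    have h5 : κ * ‖d‖ ≤ (1 + L * M) * (L * e + η) := by
      have : κ * ‖d‖ ≤ (1 - s ^ 2 * (α * β)) * ‖d‖ :=
        mul_le_mul_of_nonneg_right hκs (norm_nonneg _)
      linarith
    rw [div_mul_eq_mul_div, le_div_iff₀ hκ]
    linarith
  refine ⟨i, j, x₁, x₂, ?_, hx₁, hx₂, ?_⟩
  · rw [dist_comm, dist_eq_norm]
    exact hdn
  · have e1 : p + s • V p = p₀ + s • V p₀ + ((p - p₀) + s • A (p - p₀) + s • rem) := by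
      rw [hrem]
      module
    rw [e1, hv, hz, smul_add]
    abel

end frame

end Crest.Agent.Helper10
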